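import Mathlib
open MvPolynomial Matrix

namespace Vale.Agent.P287.H402

theorem minors {R : Type*} [CommRing R] (M : Matrix (Fin 3) (Fin 3) R) (h : M.adjugate = 0)
    (i m j l : Fin 3) : M m l * M i j = M m j * M i l := by
  have key : ∀ i m j l : Fin 3, i < m → j < l → M m l * M i j = M m j * M i l := by
    rw [Matrix.adjugate_fin_three] at h
    have h' := fun a b => congrFun (congrFun h a) b
    have h00 := h' 0 0
    have h01 := h' 0 1
    have h02 := h' 0 2
    have h10 := h' 1 0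
    have h11 := h' 1 1
    have h12 := h' 1 2
    have h20 := h' 2 0
    have h21 := h' 2 1
    have h22 := h' 2 2
    simp only [of_apply, cons_val', cons_val_zero, cons_val_fin_one, cons_val_one, cons_val,
      Matrix.zero_apply] at h00 h01 h02 h10 h11 h12 h20 h21 h22
    clear h' h
    intro i m j l h1 h2
    obtain ⟨rfl, rfl⟩ | ⟨rfl, rfl⟩ | ⟨rfl, rfl⟩ : (i = 0 ∧ m = 1) ∨ (i = 0 ∧ m = 2) ∨ (i = 1 ∧ m = 2) := by
      omega
    · obtain ⟨rfl, rfl⟩ | ⟨rfl, rfl⟩ | ⟨rfl, rfl⟩ : (j = 0 ∧ l = 1) ∨ (j = 0 ∧ l = 2) ∨ (j = 1 ∧ l = 2) := by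
        omega
      · linear_combination h22
      · linear_combination -h12
      · linear_combination h02
    · obtain ⟨rfl, rfl⟩ | ⟨rfl, rfl⟩ | ⟨rfl, rfl⟩ : (j = 0 ∧ l = 1) ∨ (j = 0 ∧ l = 2) ∨ (j = 1 ∧ l = 2) := by
        omega
      · linear_combination -h21
      · linear_combination h11
      · linear_combination -h01
    · obtain ⟨rfl, rfl⟩ | ⟨rfl, rfl⟩ | ⟨rfl, rfl⟩ : (j = 0 ∧ l = 1) ∨ (j = 0 ∧ l = 2) ∨ (j = 1 ∧ l = 2) := by
        omega
      · linear_combination h20
      · linear_combination -h10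
      · linear_combination h00
  rcases lt_trichotomy i m with h1 | h1 | h1 <;> rcases lt_trichotomy j l with h2 | h2 | h2
  · exact key i m j l h1 h2
  · subst h2; ring
  · linear_combination - key i m l j h1 h2
  · subst h1; ring
  · subst h1; ring
  · subst h1; ring
  · linear_combination - key m i j l h1 h2
  · subst h2; ring
  · linear_combination key m i l j h1 h2

theorem dvd_of_three {R : Type*} [CommMonoidWithZero R] [NormalizedGCDMonoid R] (w : Fin 3 → R)
    (hw : Finset.univ.gcd w = 1) (x a : R) (h : ∀ i, x ∣ a * w i) : x ∣ a := by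
  have hu : IsUnit (gcd (w 0) (gcd (w 1) (w 2))) := by
    apply isUnit_of_dvd_one
    rw [← hw]
    apply Finset.dvd_gcd
    intro i _
    fin_cases i
    · exact gcd_dvd_left _ _
    · exact (gcd_dvd_right _ _).trans (gcd_dvd_left _ _)
    · exact (gcd_dvd_right _ _).trans (gcd_dvd_right _ _)
  have h1 : x ∣ a * gcd (w 1) (w 2) :=
    (dvd_gcd (h 1) (h 2)).trans (gcd_mul_left' a (w 1) (w 2)).dvd
  have h2 : x ∣ a * gcd (w 0) (gcd (w 1) (w 2)) :=
    (dvd_gcd (h 0) h1).trans (gcd_mul_left' a (w 0) _).dvd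
  exact (IsUnit.dvd_mul_right hu).1 h2

theorem low_kernel (N : Matrix (Fin 3) (Fin 3) (MvPolynomial (Fin 3) ℂ))
    (hN : ∀ i j, (N i j).totalDegree ≤ 1) (hd : N.det = 0) :
    ∃ k : Fin 3 → MvPolynomial (Fin 3) ℂ, k ≠ 0 ∧ (∀ i, (k i).totalDegree ≤ 1) ∧
      ((∀ i, ∑ j, N i j * k j = 0) ∨ (∀ j, ∑ i, k i * N i j = 0)) := by
  by_cases hR : N.adjugate = 0
  · by_cases h0 : N = 0
    · refine ⟨fun _ => 1, ?_, ?_, Or.inl ?_⟩
      · intro h
        have := congrFun h 0
        simp at this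
      · intro i; simp
      · intro i; simp [h0]
    · obtain ⟨i, j, hij⟩ : ∃ i j, N i j ≠ 0 := by
        by_contra hcon
        push Not at hcon
        exact h0 (by ext1 i j; exact hcon i j)
      obtain ⟨l, hl⟩ : ∃ l : Fin 3, l ≠ j := exists_ne j
      refine ⟨Pi.single l (N i j) - Pi.single j (N i l), ?_, ?_, Or.inl ?_⟩
      · intro h
        have := congrFun h l
        simp [hl] at this
        exact hij this
      · intro a
        rw [Pi.sub_apply]
        refine (totalDegree_sub _ _).trans (max_le ?_ ?_)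
        · by_cases ha : a = l
          · subst ha; simpa using hN i j
          · simp [ha]
        · by_cases ha : a = j
          · subst ha; simpa using hN i l
          · simp [ha]
      · intro m
        simp only [Pi.sub_apply, mul_sub, Finset.sum_sub_distrib, Pi.single_apply, mul_ite, mul_zero,
          Finset.sum_ite_eq', Finset.mem_univ, if_true]
        rw [minors N hR i m j l, sub_self]
  · obtain ⟨j, hj⟩ : ∃ j, (fun i => N.adjugate i j) ≠ 0 := by
      by_contra hcon
      push Not at hcon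
      exact hR (by ext1 i j; exact congrFun (hcon j) i)
    obtain ⟨inst⟩ := (inferInstance : Nonempty (NormalizedGCDMonoid (MvPolynomial (Fin 3) ℂ)))
    obtain ⟨w, hvw, hw⟩ := Finset.extract_gcd (s := Finset.univ) (fun i => N.adjugate i j)
      Finset.univ_nonempty
    set g := Finset.univ.gcd (fun i => N.adjugate i j) with hg
    have hv : ∀ k, N.adjugate k j = g * w k := fun k => hvw k (Finset.mem_univ k)
    have hg0 : g ≠ 0 := by
      intro h
      apply hj
      funext k
      simp [hv k, h]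
    have hw0 : w ≠ 0 := by
      intro h
      apply hj
      funext k
      simp [hv k, h]
    have hdeg : ∀ a b, (N.adjugate a b).totalDegree ≤ 2 := by
      have h2 : ∀ a b e f : MvPolynomial (Fin 3) ℂ, a.totalDegree ≤ 1 → b.totalDegree ≤ 1 →
          e.totalDegree ≤ 1 → f.totalDegree ≤ 1 → (a * b - e * f).totalDegree ≤ 2 := by
        intro a b e f ha hb he hf
        refine (totalDegree_sub _ _).trans (max_le ?_ ?_)
        · exact (totalDegree_mul _ _).trans (by omega)
        · exact (totalDegree_mul _ _).trans (by omega)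
      have h3 : ∀ a b e f : MvPolynomial (Fin 3) ℂ, a.totalDegree ≤ 1 → b.totalDegree ≤ 1 →
          e.totalDegree ≤ 1 → f.totalDegree ≤ 1 → (-(a * b) + e * f).totalDegree ≤ 2 := by
        intro a b e f ha hb he hf
        have := h2 e f a b he hf ha hb
        rwa [sub_eq_neg_add] at this
      have h4 : ∀ a b, (!![N 1 1 * N 2 2 - N 1 2 * N 2 1, -(N 0 1 * N 2 2) + N 0 2 * N 2 1,
          N 0 1 * N 1 2 - N 0 2 * N 1 1; -(N 1 0 * N 2 2) + N 1 2 * N 2 0,
          N 0 0 * N 2 2 - N 0 2 * N 2 0, -(N 0 0 * N 1 2) + N 0 2 * N 1 0;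
          N 1 0 * N 2 1 - N 1 1 * N 2 0, -(N 0 0 * N 2 1) + N 0 1 * N 2 0,
          N 0 0 * N 1 1 - N 0 1 * N 1 0] a b).totalDegree ≤ 2 := by
        have k00 := h2 (N 1 1) (N 2 2) (N 1 2) (N 2 1) (hN _ _) (hN _ _) (hN _ _) (hN _ _)
        have k01 := h3 (N 0 1) (N 2 2) (N 0 2) (N 2 1) (hN _ _) (hN _ _) (hN _ _) (hN _ _)
        have k02 := h2 (N 0 1) (N 1 2) (N 0 2) (N 1 1) (hN _ _) (hN _ _) (hN _ _) (hN _ _)
        have k10 := h3 (N 1 0) (N 2 2) (N 1 2) (N 2 0) (hN _ _) (hN _ _) (hN _ _) (hN _ _)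
        have k11 := h2 (N 0 0) (N 2 2) (N 0 2) (N 2 0) (hN _ _) (hN _ _) (hN _ _) (hN _ _)
        have k12 := h3 (N 0 0) (N 1 2) (N 0 2) (N 1 0) (hN _ _) (hN _ _) (hN _ _) (hN _ _)
        have k20 := h2 (N 1 0) (N 2 1) (N 1 1) (N 2 0) (hN _ _) (hN _ _) (hN _ _) (hN _ _)
        have k21 := h3 (N 0 0) (N 2 1) (N 0 1) (N 2 0) (hN _ _) (hN _ _) (hN _ _) (hN _ _)
        have k22 := h2 (N 0 0) (N 1 1) (N 0 1) (N 1 0) (hN _ _) (hN _ _) (hN _ _) (hN _ _)
        clear h2 h3
        generalize N 1 1 * N 2 2 - N 1 2 * N 2 1 = p00 at *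
        generalize -(N 0 1 * N 2 2) + N 0 2 * N 2 1 = p01 at *
        generalize N 0 1 * N 1 2 - N 0 2 * N 1 1 = p02 at *
        generalize -(N 1 0 * N 2 2) + N 1 2 * N 2 0 = p10 at *
        generalize N 0 0 * N 2 2 - N 0 2 * N 2 0 = p11 at *
        generalize -(N 0 0 * N 1 2) + N 0 2 * N 1 0 = p12 at *
        generalize N 1 0 * N 2 1 - N 1 1 * N 2 0 = p20 at *
        generalize -(N 0 0 * N 2 1) + N 0 1 * N 2 0 = p21 at *
        generalize N 0 0 * N 1 1 - N 0 1 * N 1 0 = p22 at *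
        intro a b
        fin_cases a <;> fin_cases b
        exacts [k00, k01, k02, k10, k11, k12, k20, k21, k22]
      rw [Matrix.adjugate_fin_three]
      exact h4
    have hNv : ∀ i, ∑ k, N i k * w k = 0 := by
      intro i
      have h1 : (N * N.adjugate) i j = 0 := by
        rw [Matrix.mul_adjugate, hd]; simp
      rw [Matrix.mul_apply] at h1
      have h2 : g * ∑ k, N i k * w k = 0 := by
        rw [Finset.mul_sum, ← h1]
        refine Finset.sum_congr rfl fun k _ => ?_
        rw [hv k]; ring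
      exact (mul_eq_zero.1 h2).resolve_left hg0
    by_cases hlow : ∀ k, (w k).totalDegree ≤ 1
    · exact ⟨w, hw0, hlow, Or.inl hNv⟩
    · push Not at hlow
      obtain ⟨k0, hk0⟩ := hlow
      have hwk : w k0 ≠ 0 := by
        intro h; rw [h] at hk0; simp at hk0
      have hadj2 : N.adjugate.adjugate = 0 := by
        rw [Matrix.adjugate_adjugate _ (by simp), hd]
        simp
      have hdvd : ∀ l, w k0 ∣ N.adjugate k0 l := by
        intro l
        apply dvd_of_three w hw
        intro k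
        refine ⟨N.adjugate k l, ?_⟩
        have h1 := minors N.adjugate hadj2 k0 k l j
        -- adj k j * adj k0 l = adj k l * adj k0 j
        rw [hv k, hv k0] at h1
        apply mul_left_cancel₀ hg0
        linear_combination h1
      choose s hs using hdvd
      have hsdeg : ∀ l, (s l).totalDegree ≤ 1 := by
        intro l
        by_cases hsl : s l = 0
        · rw [hsl]; simp
        · have h1 := hdeg k0 l
          rw [hs l, totalDegree_mul_of_isDomain hwk hsl] at h1
          omega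
      refine ⟨s, ?_, hsdeg, Or.inr ?_⟩
      · intro h
        have h1 := hs j
        rw [h, hv k0] at h1
        simp at h1
        exact h1.elim hg0 hwk
      · intro m
        have h1 : (N.adjugate * N) k0 m = 0 := by
          rw [Matrix.adjugate_mul, hd]; simp
        rw [Matrix.mul_apply] at h1
        have h2 : w k0 * ∑ l, s l * N l m = 0 := by
          rw [Finset.mul_sum, ← h1]
          refine Finset.sum_congr rfl fun k _ => ?_
          rw [hs k]; ring
        exact (mul_eq_zero.1 h2).resolve_left hwk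

theorem exists_linear (q : MvPolynomial (Fin 3) ℂ) (hq : q.IsHomogeneous 1) :
    ∃ a : Fin 3 → ℂ, q = ∑ j, C (a j) * X j := by
  have h1 : q ∈ homogeneousSubmodule (Fin 3) ℂ 1 := hq
  rw [homogeneousSubmodule_one_eq_span_X, Submodule.mem_span_range_iff_exists_fun] at h1
  obtain ⟨a, ha⟩ := h1
  exact ⟨a, by rw [← ha]; simp [smul_eq_C_mul]⟩

theorem exists_affine (p : MvPolynomial (Fin 3) ℂ) (hp : p.totalDegree ≤ 1) :
    ∃ (a0 : ℂ) (a : Fin 3 → ℂ), p = C a0 + ∑ j, C (a j) * X j := by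
  obtain ⟨a, ha⟩ := exists_linear (homogeneousComponent 1 p) (homogeneousComponent_isHomogeneous 1 p)
  refine ⟨coeff 0 p, a, ?_⟩
  rw [← ha, ← homogeneousComponent_zero]
  have h1 := sum_homogeneousComponent p
  have h2 : p.totalDegree = 0 ∨ p.totalDegree = 1 := by omega
  rcases h2 with h2 | h2
  · rw [h2] at h1
    have h3 : homogeneousComponent 1 p = 0 := homogeneousComponent_eq_zero _ _ (by omega)
    rw [h3, add_zero]
    conv_lhs => rw [← h1]
    simp
  · rw [h2] at h1
    conv_lhs => rw [← h1]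
    simp [Finset.sum_range_succ]

/-- the trilinear form of the net -/
def BB (A : Fin 3 → Matrix (Fin 3) (Fin 3) ℂ) (x u v : Fin 3 → ℂ) : ℂ :=
  ∑ k, x k * (u ⬝ᵥ (A k).mulVec v)

section
variable (A : Fin 3 → Matrix (Fin 3) (Fin 3) ℂ)

theorem BB_add1 (x y u v : Fin 3 → ℂ) : BB A (x + y) u v = BB A x u v + BB A y u v := by
  simp [BB, add_mul, Finset.sum_add_distrib]

theorem BB_smul1 (a : ℂ) (x u v : Fin 3 → ℂ) : BB A (a • x) u v = a * BB A x u v := by
  simp [BB, Finset.mul_sum, mul_assoc]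

theorem BB_add2 (x u w v : Fin 3 → ℂ) : BB A x (u + w) v = BB A x u v + BB A x w v := by
  simp [BB, mul_add, Finset.sum_add_distrib, add_dotProduct]

theorem BB_smul2 (a : ℂ) (x u v : Fin 3 → ℂ) : BB A x (a • u) v = a * BB A x u v := by
  simp only [BB, Finset.mul_sum, smul_dotProduct, smul_eq_mul]
  exact Finset.sum_congr rfl fun k _ => by ring

theorem BB_add3 (x u w v : Fin 3 → ℂ) : BB A x u (w + v) = BB A x u w + BB A x u v := by
  simp [BB, mul_add, Finset.sum_add_distrib, mulVec_add, dotProduct_add]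

theorem BB_smul3 (a : ℂ) (x u v : Fin 3 → ℂ) : BB A x u (a • v) = a * BB A x u v := by
  simp only [BB, Finset.mul_sum, mulVec_smul, dotProduct_smul, smul_eq_mul]
  exact Finset.sum_congr rfl fun k _ => by ring

theorem BB_symm (hA : ∀ k, (A k).IsSymm) (x u v : Fin 3 → ℂ) : BB A x u v = BB A x v u := by
  simp only [BB]
  refine Finset.sum_congr rfl fun k _ => ?_
  congr 1
  rw [dotProduct_mulVec, ← mulVec_transpose, (hA k).eq, dotProduct_comm]

theorem BB_eq (x u : Fin 3 → ℂ) : u ⬝ᵥ (∑ k, x k • A k).mulVec u = BB A x u u := by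
  simp only [BB, Fin.sum_univ_three, add_mulVec, smul_mulVec, dotProduct_add, dotProduct_smul,
    smul_eq_mul]

end

theorem case_zero (A : Fin 3 → Matrix (Fin 3) (Fin 3) ℂ) (hA : ∀ k, (A k).IsSymm)
    (hb : ∀ p : Fin 3 → ℂ, p ≠ 0 → ∃ k, p ⬝ᵥ (A k).mulVec p ≠ 0)
    (c : Matrix (Fin 3) (Fin 3) ℂ)
    (h : ∀ x : Fin 3 → ℂ, (c.mulVec x) ⬝ᵥ (∑ k, x k • A k).mulVec (c.mulVec x) = 0) : c = 0 := by
  have h0 : ∀ x, BB A x (c *ᵥ x) (c *ᵥ x) = 0 := fun x => by rw [← BB_eq]; exact h x
  have hs := BB_symm A hA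
  -- polarisation
  have h1 : ∀ x y, BB A y (c *ᵥ x) (c *ᵥ x) + 2 * BB A x (c *ᵥ x) (c *ᵥ y) = 0 := by
    intro x y
    have e1 := h0 (x + (1 : ℂ) • y)
    have e2 := h0 (x + (-1 : ℂ) • y)
    have e3 := h0 x
    have e4 := h0 y
    simp only [mulVec_add, mulVec_smul, BB_add1, BB_add2, BB_add3, BB_smul1, BB_smul2, BB_smul3]
      at e1 e2
    have e5 := hs x (c *ᵥ x) (c *ᵥ y)
    linear_combination (1 / 2 : ℂ) * e1 - (1 / 2 : ℂ) * e2 - e4 + e5
  have h2 : ∀ x y z, BB A x (c *ᵥ y) (c *ᵥ z) + BB A y (c *ᵥ x) (c *ᵥ z)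
      + BB A z (c *ᵥ x) (c *ᵥ y) = 0 := by
    intro x y z
    have e1 := h1 (x + z) y
    have e2 := h1 x y
    have e3 := h1 z y
    simp only [mulVec_add, BB_add1, BB_add2, BB_add3] at e1
    have e4 := hs x (c *ᵥ y) (c *ᵥ z)
    have e5 := hs y (c *ᵥ x) (c *ᵥ z)
    linear_combination (1 / 2 : ℂ) * e1 - (1 / 2 : ℂ) * e2 - (1 / 2 : ℂ) * e3 + e4 + (1 / 2 : ℂ) * e5
  have hbp : ∀ p, p ≠ 0 → (∀ k, BB A (Pi.single k 1) p p = 0) → False := by
    intro p hp hx
    obtain ⟨k, hk⟩ := hb p hp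
    have := hx k
    simp [BB, Pi.single_apply] at this
    exact hk this
  by_cases hdet : c.det = 0
  · -- singular case
    by_contra hc
    obtain ⟨y, hy⟩ : ∃ y, c *ᵥ y ≠ 0 := by
      by_contra hcon
      push Not at hcon
      apply hc
      ext i j
      have := congrFun (hcon (Pi.single j 1)) i
      simpa using this
    have hker : ∀ x v, c *ᵥ v = 0 → BB A v (c *ᵥ x) (c *ᵥ x) = 0 := by
      intro x v hv
      have := h1 x v
      rw [hv] at this
      simpa [BB] using this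
    by_cases hr : ∀ x, ∃ a : ℂ, c *ᵥ x = a • (c *ᵥ y)
    · apply hbp (c *ᵥ y) hy
      suffices hh : ∀ x : Fin 3 → ℂ, BB A x (c *ᵥ y) (c *ᵥ y) = 0 from fun k => hh _
      intro x
      obtain ⟨a, ha⟩ := hr x
      have e1 := hker y (x + (-a) • y) (by rw [mulVec_add, mulVec_smul, ha]; module)
      have e2 := h0 y
      simp only [BB_add1, BB_smul1] at e1
      linear_combination e1 + a * e2
    · push Not at hr
      obtain ⟨z, hz⟩ := hr
      have hind : ∀ a b : ℂ, a • (c *ᵥ y) + b • (c *ᵥ z) = 0 → a = 0 ∧ b = 0 := by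
        intro a b hab
        have hb0 : b = 0 := by
          by_contra hb0
          apply hz (-(b⁻¹ * a))
          have : c *ᵥ z = b⁻¹ • (b • (c *ᵥ z)) := by rw [smul_smul, inv_mul_cancel₀ hb0, one_smul]
          rw [this, eq_neg_of_add_eq_zero_right hab]
          module
        subst hb0
        simp only [zero_smul, add_zero] at hab
        exact ⟨(smul_eq_zero.1 hab).resolve_right hy, rfl⟩
      have hspan : ∀ x, ∃ a b : ℂ, c *ᵥ (x + a • y + b • z) = 0 := by
        intro x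
        have hX : (c * (Matrix.of ![x, y, z])ᵀ).det = 0 := by rw [det_mul, hdet, zero_mul]
        obtain ⟨v, hv, hv0⟩ := Matrix.exists_mulVec_eq_zero_iff.2 hX
        have hv1 : c *ᵥ (v 0 • x + v 1 • y + v 2 • z) = 0 := by
          rw [← hv0, ← mulVec_mulVec]
          congr 1
          ext i
          simp [mulVec, dotProduct, Fin.sum_univ_three]
          ring
        have hv2 : v 0 ≠ 0 := by
          intro h00
          rw [h00, zero_smul, zero_add, mulVec_add, mulVec_smul, mulVec_smul] at hv1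
          obtain ⟨ha, hb'⟩ := hind _ _ hv1
          apply hv
          ext i
          fin_cases i <;> simp [h00, ha, hb']
        refine ⟨(v 0)⁻¹ * v 1, (v 0)⁻¹ * v 2, ?_⟩
        have : x + ((v 0)⁻¹ * v 1) • y + ((v 0)⁻¹ * v 2) • z
            = (v 0)⁻¹ • (v 0 • x + v 1 • y + v 2 • z) := by
          rw [smul_add, smul_add, smul_smul, smul_smul, smul_smul, inv_mul_cancel₀ hv2, one_smul]
        rw [this, mulVec_smul, hv1, smul_zero]
      -- the linear form
      set s := BB A y (c *ᵥ y) (c *ᵥ z) with hs1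
      set t := BB A y (c *ᵥ z) (c *ᵥ z) with ht1
      obtain ⟨a, b, hab, hab0⟩ : ∃ a b : ℂ, (a ≠ 0 ∨ b ≠ 0) ∧ 2 * a * s + b * t = 0 := by
        by_cases hst : s = 0
        · exact ⟨1, 0, Or.inl one_ne_zero, by rw [hst]; ring⟩
        · exact ⟨t, -(2 * s), Or.inr (by simpa using hst), by ring⟩
      have hp : a • (c *ᵥ y) + b • (c *ᵥ z) ≠ 0 := by
        intro hcon
        obtain ⟨h3, h4⟩ := hind _ _ hcon
        tauto
      have hpc : a • (c *ᵥ y) + b • (c *ᵥ z) = c *ᵥ (a • y + b • z) := by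
        rw [mulVec_add, mulVec_smul, mulVec_smul]
      apply hbp _ hp
      suffices hh : ∀ x, BB A x (a • (c *ᵥ y) + b • (c *ᵥ z)) (a • (c *ᵥ y) + b • (c *ᵥ z)) = 0 from
        fun k => hh _
      intro x
      obtain ⟨α, β, hαβ⟩ := hspan x
      have e1 := hker (a • y + b • z) _ hαβ
      rw [← hpc] at e1
      simp only [BB_add1, BB_add2, BB_add3, BB_smul1, BB_smul2, BB_smul3] at e1 ⊢
      have f1 := h0 y
      have f2 := h0 z
      have f3 := h1 y z
      have f4 := h1 z y
      have f5 := hs y (c *ᵥ y) (c *ᵥ z)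
      have f6 := hs z (c *ᵥ y) (c *ᵥ z)
      linear_combination e1 - α * (a ^ 2 * f1 - a * b * f5 + b * hab0)
        - β * (a ^ 2 * f3 + a * b * f6 + a * b * f4 + b ^ 2 * f2 - a * hab0)
  · -- invertible case: eigenvector
    exfalso
    set T : Fin 3 → Fin 3 → Fin 3 → ℂ := fun k i j =>
      BB A (Pi.single k 1) (c *ᵥ Pi.single i 1) (c *ᵥ Pi.single j 1) with hT
    have hTs : ∀ k i j, T k i j = T k j i := fun k i j => hs _ _ _
    have r1 : ∀ i j, T j i i + 2 * T i i j = 0 := fun i j => h1 _ _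
    have r0 : ∀ i, T i i i = 0 := fun i => h0 _
    have r2 : ∀ i j k, T i j k + T j i k + T k i j = 0 := fun i j k => h2 _ _ _
    have hexp : ∀ k (x : Fin 3 → ℂ), BB A (Pi.single k 1) (c *ᵥ x) (c *ᵥ x)
        = ∑ i, ∑ j, x i * x j * T k i j := by
      intro k x
      have hx : x = x 0 • Pi.single 0 1 + x 1 • Pi.single 1 1 + x 2 • Pi.single 2 1 := by
        ext i; fin_cases i <;> simp
      conv_lhs => rw [hx]
      simp only [mulVec_add, mulVec_smul, BB_add2, BB_add3, BB_smul2, BB_smul3,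
        Fin.sum_univ_three, hT]
      ring
    set M : Matrix (Fin 3) (Fin 3) ℂ := !![2 * T 1 0 2, -T 2 1 1, T 1 2 2;
      T 2 0 0, -2 * T 0 1 2, -T 0 2 2; -T 1 0 0, T 0 1 1, 0] with hM
    obtain ⟨μ, hμ⟩ := Module.End.exists_eigenvalue (Matrix.toLin' M)
    obtain ⟨x, hx⟩ := hμ.exists_hasEigenvector
    have hx0 : x ≠ 0 := hx.2
    have hMx : M *ᵥ x = μ • x := by
      have := hx.apply_eq_smul
      rwa [Matrix.toLin'_apply] at this
    have q0 := congrFun hMx 0
    have q1 := congrFun hMx 1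
    have q2 := congrFun hMx 2
    simp [hM, mulVec, dotProduct, Fin.sum_univ_three] at q0 q1 q2
    have hcx : c *ᵥ x ≠ 0 := by
      intro hcx
      exact hx0 (Matrix.eq_zero_of_mulVec_eq_zero hdet hcx)
    apply hbp _ hcx
    intro k
    rw [hexp]
    simp only [Fin.sum_univ_three]
    rw [hTs k 1 0, hTs k 2 0, hTs k 2 1]
    fin_cases k
    · simp only [Fin.zero_eta]
      linear_combination x 1 * q2 - x 2 * q1 + x 0 ^ 2 * r0 0 + x 0 * x 1 * r1 0 1 + x 0 * x 2 * r1 0 2
    · simp only [Fin.mk_one]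
      linear_combination x 2 * q0 - x 0 * q2 + x 1 ^ 2 * r0 1 + x 1 * x 0 * (r1 1 0 + 2 * hTs 1 0 1) + x 1 * x 2 * r1 1 2
    · simp only [Fin.reduceFinMk]
      linear_combination x 0 * q1 - x 1 * q0 + x 2 ^ 2 * r0 2 + x 2 * x 0 * (r1 2 0 + 2 * hTs 2 0 2) + x 2 * x 1 * (r1 2 1 + 2 * hTs 2 1 2) + 2 * x 0 * x 1 * r2 0 1 2

/-- LEAF B of P287 (674's specification) -/
theorem no_solution_at_infinity (A : Fin 3 → Matrix (Fin 3) (Fin 3) ℂ) (hA : ∀ k, (A k).IsSymm)
    (hb : ∀ p : Fin 3 → ℂ, p ≠ 0 → ∃ k, p ⬝ᵥ (A k).mulVec p ≠ 0)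
    (c : Matrix (Fin 3) (Fin 3) ℂ) (r : ℂ)
    (h : ∀ x : Fin 3 → ℂ, r ^ 2 * (∑ k, x k • A k).det +
      (c.mulVec x) ⬝ᵥ (∑ k, x k • A k).mulVec (c.mulVec x) = 0) : r = 0 ∧ c = 0 := by
  by_cases hr : r = 0
  · refine ⟨hr, case_zero A hA hb c fun x => ?_⟩
    have := h x
    rw [hr] at this
    simpa using this
  exfalso
  -- the matrix of linear forms
  set cl : Fin 3 → MvPolynomial (Fin 3) ℂ := fun i => ∑ j, C (c i j) * X j with hcl
  set S : Matrix (Fin 3) (Fin 3) (MvPolynomial (Fin 3) ℂ) :=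
    !![0, -cl 2, cl 1; cl 2, 0, -cl 0; -cl 1, cl 0, 0] with hS
  set N : Matrix (Fin 3) (Fin 3) (MvPolynomial (Fin 3) ℂ) := fun i j =>
    (∑ k, C (r * A k i j) * X k) + S i j with hN
  -- evaluation
  have hcle : ∀ x i, eval x (cl i) = (c *ᵥ x) i := by
    intro x i
    simp [hcl, mulVec, dotProduct]
  have hNe : ∀ x i j, eval x (N i j) = r * (∑ k, x k • A k) i j +
      !![0, -(c *ᵥ x) 2, (c *ᵥ x) 1; (c *ᵥ x) 2, 0, -(c *ᵥ x) 0; -(c *ᵥ x) 1, (c *ᵥ x) 0, 0] i j := by
    intro x i j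
    have h1 : eval x (S i j) = !![0, -(c *ᵥ x) 2, (c *ᵥ x) 1; (c *ᵥ x) 2, 0, -(c *ᵥ x) 0;
        -(c *ᵥ x) 1, (c *ᵥ x) 0, 0] i j := by
      rw [← hcle, ← hcle, ← hcle]
      fin_cases i <;> fin_cases j <;> simp [hS]
    rw [← h1]
    simp only [hN, map_add, map_sum, map_mul, eval_C, eval_X, Finset.mul_sum, Matrix.sum_apply,
      Matrix.smul_apply, smul_eq_mul]
    congr 1
    exact Finset.sum_congr rfl fun k _ => by ring
  have hlin : ∀ a : Fin 3 → ℂ, (∑ j, C (a j) * X j : MvPolynomial (Fin 3) ℂ).totalDegree ≤ 1 := by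
    intro a
    refine totalDegree_finsetSum_le fun j _ => ?_
    exact (totalDegree_mul _ _).trans (by simp)
  have hNd : ∀ i j, (N i j).totalDegree ≤ 1 := by
    intro i j
    refine (totalDegree_add _ _).trans (max_le (hlin _) ?_)
    have h1 := fun i => hlin (c i)
    have h2 : ∀ i, (-cl i).totalDegree ≤ 1 := fun i => by rw [totalDegree_neg]; exact h1 i
    fin_cases i <;> fin_cases j
    exacts [by simp [hS], h2 2, h1 1, h1 2, by simp [hS], h2 0, h2 1, h1 0, by simp [hS]]
  have hdet : N.det = 0 := by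
    apply MvPolynomial.funext
    intro x
    have h3 := h x
    have hsym : (∑ k, x k • A k).IsSymm := by
      unfold Matrix.IsSymm
      rw [Matrix.transpose_sum]
      exact Finset.sum_congr rfl fun k _ => by rw [Matrix.transpose_smul, (hA k).eq]
    rw [Matrix.det_fin_three]
    simp only [map_sub, map_add, map_mul, hNe, map_zero]
    generalize (∑ k, x k • A k) = Ax at *
    generalize (c *ᵥ x) = u at *
    have s10 := hsym.apply 0 1
    have s20 := hsym.apply 0 2
    have s21 := hsym.apply 1 2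
    rw [Matrix.det_fin_three] at h3
    simp only [dotProduct, mulVec, Fin.sum_univ_three] at h3
    rw [s10, s20, s21] at h3
    rw [s10, s20, s21]
    simp
    linear_combination r * h3
  obtain ⟨k, hk0, hkd, hk⟩ := low_kernel N hNd hdet
  have haff := fun i => exists_affine (k i) (hkd i)
  choose k0 K' hK using haff
  obtain ⟨K, hKK⟩ : ∃ K : Matrix (Fin 3) (Fin 3) ℂ, K = Matrix.of K' := ⟨_, rfl⟩
  have hKK' : ∀ i j, K' i j = K i j := fun i j => by rw [hKK]; rfl
  simp only [hKK'] at hK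
  have hke : ∀ x i, eval x (k i) = (k0 + K *ᵥ x) i := by
    intro x i
    rw [hK i]
    simp [mulVec, dotProduct]
  -- the quadratic identity
  have hq : ∀ x, BB A x (k0 + K *ᵥ x)
      (k0 + K *ᵥ x) = 0 := by
    intro x
    set u := k0 + K *ᵥ x with hu
    have h1 : ∑ i, ∑ j, u i * u j * eval x (N i j) = 0 := by
      rcases hk with hk | hk
      · refine Finset.sum_eq_zero fun i _ => ?_
        have := congrArg (eval x) (hk i)
        simp only [map_sum, map_mul, map_zero, hke] at this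
        have h2 : ∑ j, u i * u j * eval x (N i j) = u i * ∑ j, eval x (N i j) * u j := by
          rw [Finset.mul_sum]
          exact Finset.sum_congr rfl fun j _ => by ring
        rw [h2, this, mul_zero]
      · rw [Finset.sum_comm]
        refine Finset.sum_eq_zero fun j _ => ?_
        have := congrArg (eval x) (hk j)
        simp only [map_sum, map_mul, map_zero, hke] at this
        have h2 : ∑ i, u i * u j * eval x (N i j) = u j * ∑ i, u i * eval x (N i j) := by
          rw [Finset.mul_sum]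
          exact Finset.sum_congr rfl fun j _ => by ring
        rw [h2, this, mul_zero]
    rw [← BB_eq]
    have h2 : r * (u ⬝ᵥ (∑ k, x k • A k) *ᵥ u) = 0 := by
      rw [← h1]
      simp only [hNe]
      generalize (∑ k, x k • A k) = Ax
      simp [dotProduct, mulVec, Fin.sum_univ_three]
      ring
    exact (mul_eq_zero.1 h2).resolve_left hr
  have hs := BB_symm A hA
  have hq2 : ∀ x, BB A x k0 k0 = 0 ∧
      BB A x (K *ᵥ x) (K *ᵥ x) = 0 := by
    intro x
    have e1 := hq x
    have e2 := hq ((-1 : ℂ) • x)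
    have e3 := hq ((2 : ℂ) • x)
    simp only [mulVec_smul, BB_add2, BB_add3, BB_smul1, BB_smul2, BB_smul3] at e1 e2 e3
    constructor
    · linear_combination e1 - (1 / 3 : ℂ) * e2 - (1 / 6 : ℂ) * e3
    · linear_combination - (1 / 2 : ℂ) * e1 - (1 / 6 : ℂ) * e2 + (1 / 6 : ℂ) * e3
  have hKz : K = 0 :=
    case_zero A hA hb K fun x => by rw [BB_eq]; exact (hq2 x).2
  have hk0z : k0 = 0 := by
    by_contra hne
    obtain ⟨j, hj⟩ := hb k0 hne
    have := (hq2 (Pi.single j 1)).1
    simp [BB, Pi.single_apply] at this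
    exact hj this
  apply hk0
  funext i
  rw [hK i, hk0z]
  have : ∀ j, K i j = 0 := fun j => congrFun (congrFun hKz i) j
  simp [this]

end Vale.Agent.P287.H402
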