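import Vale.Agent.P287.H402.B
import Vale.Agent.P287.H46.CommonZero
open MvPolynomial Matrix

namespace Vale.Agent.P287.H402

/-- position of the entry `(i, j)` of the unknown matrix -/
def idx (i j : Fin 3) : Fin 11 := ⟨2 + 3 * i.1 + j.1, by omega⟩

/-- the ten monomials of degree three -/
def monoPair (t : Fin 10) : ℕ × ℕ :=
  ![(0, 0), (0, 1), (0, 2), (0, 3), (1, 0), (1, 1), (1, 2), (2, 0), (2, 1), (3, 0)] t

noncomputable def mono (t : Fin 10) : Fin 3 →₀ ℕ :=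
  Finsupp.single 0 (monoPair t).1 + Finsupp.single 1 (monoPair t).2
    + Finsupp.single 2 (3 - (monoPair t).1 - (monoPair t).2)

theorem exists_mono (m : Fin 3 →₀ ℕ) (hm : m.degree = 3) : ∃ t, m = mono t := by
  have h1 : m 0 + m 1 + m 2 = 3 := by
    have := Finsupp.degree_eq_sum m
    rw [Fin.sum_univ_three] at this
    omega
  have h2 : ∃ t : Fin 10, m 0 = (monoPair t).1 ∧ m 1 = (monoPair t).2 := by
    have h0 : m 0 ≤ 3 := by omega
    have h0' : m 1 ≤ 3 - m 0 := by omega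
    generalize m 0 = a at *
    generalize m 1 = b at *
    interval_cases a
    · interval_cases b
      exacts [⟨0, rfl, rfl⟩, ⟨1, rfl, rfl⟩, ⟨2, rfl, rfl⟩, ⟨3, rfl, rfl⟩]
    · interval_cases b
      exacts [⟨4, rfl, rfl⟩, ⟨5, rfl, rfl⟩, ⟨6, rfl, rfl⟩]
    · interval_cases b
      exacts [⟨7, rfl, rfl⟩, ⟨8, rfl, rfl⟩]
    · interval_cases b
      exacts [⟨9, rfl, rfl⟩]
  obtain ⟨t, ht1, ht2⟩ := h2
  refine ⟨t, ?_⟩
  ext i
  fin_cases i
  · simp [mono, ht1]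
  · simp [mono, ht2]
  · simp [mono, ← ht1, ← ht2]; omega

/-- the cubic form of the unknowns -/
noncomputable def Gp (f D : MvPolynomial (Fin 3) ℂ) (A : Fin 3 → Matrix (Fin 3) (Fin 3) ℂ) (α β : ℂ)
    (c : Fin 3 → Fin 3 → ℂ) : MvPolynomial (Fin 3) ℂ :=
  C α * f - C β * D - ∑ k, ∑ i, ∑ j, ∑ a, ∑ b, C (A k i j * c i a * c j b) * (X k * X a * X b)

/-- its coefficient at `m`, as a polynomial in the unknowns -/
noncomputable def Pp (f D : MvPolynomial (Fin 3) ℂ) (A : Fin 3 → Matrix (Fin 3) (Fin 3) ℂ)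
    (m : Fin 3 →₀ ℕ) : MvPolynomial (Fin 11) ℂ :=
  X 0 ^ 2 * C (coeff m f) - X 1 ^ 2 * C (coeff m D) -
    ∑ k, ∑ i, ∑ j, ∑ a, ∑ b, C (A k i j * coeff m (X k * X a * X b : MvPolynomial (Fin 3) ℂ))
      * (X (idx i a) * X (idx j b))

theorem eval_Pp (f D : MvPolynomial (Fin 3) ℂ) (A : Fin 3 → Matrix (Fin 3) (Fin 3) ℂ)
    (m : Fin 3 →₀ ℕ) (v : Fin 11 → ℂ) :
    eval v (Pp f D A m) = coeff m (Gp f D A (v 0 ^ 2) (v 1 ^ 2) fun i j => v (idx i j)) := by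
  have h1 : eval v (Pp f D A m) = v 0 ^ 2 * coeff m f - v 1 ^ 2 * coeff m D -
      ∑ k, ∑ i, ∑ j, ∑ a, ∑ b, A k i j * coeff m (X k * X a * X b : MvPolynomial (Fin 3) ℂ)
      * (v (idx i a) * v (idx j b)) := by
    simp only [Pp, map_sub, map_mul, map_pow, map_sum, eval_X, eval_C]
  have h2 : coeff m (Gp f D A (v 0 ^ 2) (v 1 ^ 2) fun i j => v (idx i j)) =
      v 0 ^ 2 * coeff m f - v 1 ^ 2 * coeff m D -
      ∑ k, ∑ i, ∑ j, ∑ a, ∑ b, (A k i j * v (idx i a) * v (idx j b)) *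
        coeff m (X k * X a * X b : MvPolynomial (Fin 3) ℂ) := by
    simp only [Gp, coeff_sub, coeff_C_mul, coeff_sum]
  rw [h1, h2]
  refine congrArg₂ _ rfl ?_
  refine Finset.sum_congr rfl fun k _ => Finset.sum_congr rfl fun i _ =>
    Finset.sum_congr rfl fun j _ => Finset.sum_congr rfl fun a _ => Finset.sum_congr rfl fun b _ => ?_
  ring

theorem Gp_hom {f D : MvPolynomial (Fin 3) ℂ} (hf : f.IsHomogeneous 3) (hD : D.IsHomogeneous 3)
    (A : Fin 3 → Matrix (Fin 3) (Fin 3) ℂ) (α β : ℂ) (c : Fin 3 → Fin 3 → ℂ) :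
    (Gp f D A α β c).IsHomogeneous 3 := by
  refine IsHomogeneous.sub (IsHomogeneous.sub ?_ ?_) ?_
  · simpa using (isHomogeneous_C (Fin 3) α).mul hf
  · simpa using (isHomogeneous_C (Fin 3) β).mul hD
  · refine IsHomogeneous.sum _ _ _ fun k _ => IsHomogeneous.sum _ _ _ fun i _ =>
      IsHomogeneous.sum _ _ _ fun j _ => IsHomogeneous.sum _ _ _ fun a _ =>
      IsHomogeneous.sum _ _ _ fun b _ => ?_
    simpa using (isHomogeneous_C (Fin 3) (A k i j * c i a * c j b)).mul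
      (((isHomogeneous_X ℂ k).mul (isHomogeneous_X ℂ a)).mul (isHomogeneous_X ℂ b))

theorem eval_Gp (f D : MvPolynomial (Fin 3) ℂ) (A : Fin 3 → Matrix (Fin 3) (Fin 3) ℂ) (α β : ℂ)
    (c : Matrix (Fin 3) (Fin 3) ℂ) (x : Fin 3 → ℂ) :
    eval x (Gp f D A α β c) = α * eval x f - β * eval x D
      - (c *ᵥ x) ⬝ᵥ (∑ k, x k • A k) *ᵥ (c *ᵥ x) := by
  simp only [Gp, map_sub, map_mul, map_sum, eval_X, eval_C]
  congr 1
  simp only [dotProduct, mulVec, Finset.mul_sum, Finset.sum_mul, Matrix.sum_apply, Matrix.smul_apply,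
    smul_eq_mul]
  simp only [Fin.sum_univ_three]
  ring

/-- the matrix of the net -/
noncomputable def Lp (A : Fin 3 → Matrix (Fin 3) (Fin 3) ℂ) :
    Matrix (Fin 3) (Fin 3) (MvPolynomial (Fin 3) ℂ) :=
  Matrix.of fun i j => ∑ k, C (A k i j) * X k

/-- the determinant of the net -/
noncomputable def Dp (A : Fin 3 → Matrix (Fin 3) (Fin 3) ℂ) : MvPolynomial (Fin 3) ℂ :=
  (Lp A).det

theorem eval_Dp (A : Fin 3 → Matrix (Fin 3) (Fin 3) ℂ) (x : Fin 3 → ℂ) :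
    eval x (Dp A) = (∑ k, x k • A k).det := by
  rw [Dp, RingHom.map_det]
  congr 1
  ext i j
  simp [Lp, Matrix.sum_apply, mul_comm]

theorem Dp_hom (A : Fin 3 → Matrix (Fin 3) (Fin 3) ℂ) : (Dp A).IsHomogeneous 3 := by
  have h1 : ∀ i j, (Lp A i j).IsHomogeneous 1 := by
    intro i j
    change (∑ k, C (A k i j) * X k : MvPolynomial (Fin 3) ℂ).IsHomogeneous 1
    refine IsHomogeneous.sum _ _ _ fun k _ => ?_
    have h2 : (C (A k i j) * X k : MvPolynomial (Fin 3) ℂ).IsHomogeneous (0 + 1) :=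
      (isHomogeneous_C (Fin 3) (A k i j)).mul (isHomogeneous_X ℂ k)
    simpa using h2
  have h3 : ∀ a b c d e f : Fin 3, (Lp A a b * Lp A c d * Lp A e f).IsHomogeneous 3 := by
    intro a b c d e f
    simpa using ((h1 a b).mul (h1 c d)).mul (h1 e f)
  rw [Dp, Matrix.det_fin_three]
  exact ((((((h3 _ _ _ _ _ _).sub (h3 _ _ _ _ _ _)).sub (h3 _ _ _ _ _ _)).add (h3 _ _ _ _ _ _)).add
    (h3 _ _ _ _ _ _)).sub (h3 _ _ _ _ _ _))

/-- every plane cubic is `r² det A + cᵀ A c` for a net of conics `A` without base points -/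
theorem exists_pfaffian_form (f : MvPolynomial (Fin 3) ℂ) (hf : f.IsHomogeneous 3)
    (A : Fin 3 → Matrix (Fin 3) (Fin 3) ℂ) (hA : ∀ k, (A k).IsSymm)
    (hb : ∀ p : Fin 3 → ℂ, p ≠ 0 → ∃ k, p ⬝ᵥ (A k).mulVec p ≠ 0) :
    ∃ (r : ℂ) (c : Matrix (Fin 3) (Fin 3) ℂ), ∀ x : Fin 3 → ℂ,
      eval x f = r ^ 2 * (∑ k, x k • A k).det +
        (c.mulVec x) ⬝ᵥ (∑ k, x k • A k).mulVec (c.mulVec x) := by
  obtain ⟨v, hv, hP⟩ := Vale.Agent.P287.H46.exists_common_zero (n := 11) (k := 10) (by norm_num)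
    (fun t => Pp f (Dp A) A (mono t)) (fun t => by
      rw [eval_Pp]
      simp [Gp])
  set c : Matrix (Fin 3) (Fin 3) ℂ := fun i j => v (idx i j) with hc
  have hG : Gp f (Dp A) A (v 0 ^ 2) (v 1 ^ 2) c = 0 := by
    ext m
    rw [coeff_zero]
    by_cases hm : m.degree = 3
    · obtain ⟨t, rfl⟩ := exists_mono m hm
      have := hP t
      rw [eval_Pp] at this
      exact this
    · exact (Gp_hom hf (Dp_hom A) A _ _ _).coeff_eq_zero hm
  have hx : ∀ x, v 0 ^ 2 * eval x f = v 1 ^ 2 * (∑ k, x k • A k).det +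
      (c *ᵥ x) ⬝ᵥ (∑ k, x k • A k) *ᵥ (c *ᵥ x) := by
    intro x
    have h1 := congrArg (eval x) hG
    rw [eval_Gp, eval_Dp, map_zero] at h1
    linear_combination h1
  have h0 : v 0 ≠ 0 := by
    intro h0
    obtain ⟨h1, h2⟩ := no_solution_at_infinity A hA hb c (v 1) (fun x => by
      rw [← hx x, h0]; ring)
    apply hv
    ext i
    have h3 : ∀ a b, v (idx a b) = 0 := fun a b => congrFun (congrFun h2 a) b
    fin_cases i
    exacts [h0, h1, h3 0 0, h3 0 1, h3 0 2, h3 1 0, h3 1 1, h3 1 2, h3 2 0, h3 2 1, h3 2 2]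
  refine ⟨(v 0)⁻¹ * v 1, (v 0)⁻¹ • c, fun x => ?_⟩
  have h1 := hx x
  rw [smul_mulVec, mulVec_smul, smul_dotProduct, dotProduct_smul, smul_eq_mul, smul_eq_mul]
  field_simp
  linear_combination h1

end Vale.Agent.P287.H402
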